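import Vale.Agent.P211.Local.Calc
import Vale.Agent.P211.Alg.SelfDual.Sanity

/-!
# P211: compatibility, the symmetries of the curvature and the second Bianchi identity
-/

open Matrix
open scoped ContDiff

namespace Vale.Agent.P211.Local

open SelfDual (IsCurvTen)

noncomputable section

/-- A smooth metric on an open set. -/
structure IsMetricOn (G : Euc4 → M4) (U : Set Euc4) : Prop where
  isOpen : IsOpen U
  smooth : MSmooth G U
  symm : ∀ y i j, G y j i = G y i j
  posDef : ∀ y ∈ U, (G y).PosDef

/-- The connection matrix in the `i`-th direction. -/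
def gamMat (G : Euc4 → M4) (i : Fin 4) (x : Euc4) : M4 :=
  Matrix.of fun k j => gam G x k i j

/-- The curvature of a matrix connection. -/
def curvature (A : Fin 4 → Euc4 → M4) (i j : Fin 4) (x : Euc4) : M4 :=
  pdm (A j) i x - pdm (A i) j x + A i x * A j x - A j x * A i x

/-- The symmetries follow from those in the first two pairs and one cyclic identity. -/
theorem isCurvTen_of {R : Ten4} (h12 : ∀ i j k l, R j i k l = -R i j k l)
    (h34 : ∀ i j k l, R i j l k = -R i j k l)
    (hc : ∀ i j k l, R i j k l + R j l k i + R l i k j = 0) : IsCurvTen R := by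
  have sw : ∀ i j k l, R k l i j = R i j k l := by
    intro i j k l
    linarith [hc i j k l, hc j k l i, hc k l i j, hc l i j k, hc j i l k, hc k l j i, hc i k j l,
      hc l j k i, h12 i j k l, h12 k l i j, h12 i k j l, h12 j l i k, h12 i l j k, h12 j k i l,
      h34 i j k l, h34 k l i j, h34 i k j l, h34 j l i k, h34 i l j k, h34 j k i l,
      h12 i j l k, h12 k l j i, h12 i k l j, h12 j l k i, h12 i l k j, h12 j k l i,
      h34 j i k l, h34 l k i j, h34 k i j l, h34 l j i k, h34 l i j k, h34 k j i l]
  refine ⟨h12, h34, sw, fun i j k l => ?_⟩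
  linarith [hc j k i l, hc k l i j, sw i j k l, sw i k l j, sw i l j k, sw j k i l, sw k l i j,
    sw l j i k, h34 j k l i, h34 k l j i, h34 l j k i, h12 i j k l, h12 i k l j, h12 i l j k,
    h34 k l i j, h34 l j i k, h34 j k i l, h12 j k i l, h12 k l i j, h12 l j i k]

theorem riem_eq (G : Euc4 → M4) (x : Euc4) (i j k l : Fin 4) :
    riem G x i j k l = (G x * curvature (gamMat G) i j x) k l := by
  simp only [riem, riemUp, curvature, gamMat, mul_apply, Matrix.add_apply, Matrix.sub_apply,
    pdm, of_apply, Finset.sum_sub_distrib]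
  exact Finset.sum_congr rfl fun m _ => by ring

/-- The covariant derivative of the curvature, as a matrix in the last pair. -/
theorem covRiem_eq (G : Euc4 → M4) (x : Euc4) (m i j k l : Fin 4) :
    covRiem G x m i j k l =
      (pdm (fun y => G y * curvature (gamMat G) i j y) m x -
          ((gamMat G m x).transpose * (G x * curvature (gamMat G) i j x) +
            G x * curvature (gamMat G) i j x * gamMat G m x) -
        ∑ p, (gam G x p m i • (G x * curvature (gamMat G) p j x) +
          gam G x p m j • (G x * curvature (gamMat G) i p x))) k l := by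
  simp only [covRiem, riem_eq]
  generalize hS : (fun p q => (G x * curvature (gamMat G) p q x)) = S
  have hS' : ∀ p q, G x * curvature (gamMat G) p q x = S p q := fun p q => by rw [← hS]
  simp only [hS']
  simp only [pdm, of_apply, Matrix.sub_apply, Matrix.add_apply, Matrix.sum_apply,
    Matrix.smul_apply, smul_eq_mul, mul_apply, transpose_apply, gamMat, Finset.sum_add_distrib]
  rw [Finset.sum_congr rfl fun (p : Fin 4) _ => mul_comm (gam G x p m l) (S i j k p)]
  ring

variable {G : Euc4 → M4} {U : Set Euc4} (hG : IsMetricOn G U) {x : Euc4} (hx : x ∈ U)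
include hG

theorem IsMetricOn.transpose_eq (y : Euc4) : (G y).transpose = G y := by
  ext i j
  exact hG.symm y i j

theorem IsMetricOn.det_ne {y : Euc4} (hy : y ∈ U) : (G y).det ≠ 0 :=
  (hG.posDef y hy).det_pos.ne'

theorem IsMetricOn.smooth_gamMat (i : Fin 4) : MSmooth (gamMat G i) U := by
  intro k j
  simp only [gamMat, of_apply, gam]
  refine contDiffOn_const.mul (ContDiffOn.sum fun l _ => ?_)
  refine ((hG.smooth.inv fun y hy => hG.det_ne hy) k l).mul ?_
  exact ((pd_smooth (hG.smooth j l) hG.isOpen i).add (pd_smooth (hG.smooth i l) hG.isOpen j)).sub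
    (pd_smooth (hG.smooth i j) hG.isOpen l)

theorem IsMetricOn.smooth_curvature (i j : Fin 4) : MSmooth (curvature (gamMat G) i j) U :=
  ((((hG.smooth_gamMat j).pdm hG.isOpen i).sub ((hG.smooth_gamMat i).pdm hG.isOpen j)).add
    ((hG.smooth_gamMat i).mul (hG.smooth_gamMat j))).sub
    ((hG.smooth_gamMat j).mul (hG.smooth_gamMat i))

theorem IsMetricOn.gam_comm (y : Euc4) (k i j : Fin 4) : gam G y k j i = gam G y k i j :=
  SelfDual.gam_symm hG.symm y k i j

include hx

/-- The metric is parallel. -/
theorem IsMetricOn.compat (i : Fin 4) :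
    pdm G i x = G x * gamMat G i x + (gamMat G i x).transpose * G x := by
  have hlow : ∀ l j, (G x * gamMat G i x) l j = 1 / 2 *
      (pd (fun y => G y j l) i x + pd (fun y => G y i l) j x - pd (fun y => G y i j) l x) := by
    intro l j
    have h1 : G x * (G x)⁻¹ = 1 := mul_nonsing_inv _ (Ne.isUnit (hG.det_ne hx))
    set T : M4 := Matrix.of fun l j => 1 / 2 *
      (pd (fun y => G y j l) i x + pd (fun y => G y i l) j x - pd (fun y => G y i j) l x) with hT
    have e : gamMat G i x = (G x)⁻¹ * T := by
      ext k j
      simp only [gamMat, gam, hT, mul_apply, of_apply, Finset.mul_sum]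
      exact Finset.sum_congr rfl fun l _ => by ring
    rw [e, ← Matrix.mul_assoc, h1, Matrix.one_mul]
    rfl
  have htr : (gamMat G i x).transpose * G x = (G x * gamMat G i x).transpose := by
    rw [transpose_mul, hG.transpose_eq]
  ext a b
  rw [htr, Matrix.add_apply, transpose_apply, hlow, hlow]
  simp only [pdm, of_apply, hG.symm _ a b]
  ring

theorem IsMetricOn.diff_gamMat (i : Fin 4) : MDiff (gamMat G i) x :=
  (hG.smooth_gamMat i).diff hG.isOpen hx

theorem IsMetricOn.diff : MDiff G x := hG.smooth.diff hG.isOpen hx

theorem IsMetricOn.curvature_skew (i j : Fin 4) :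
    (G x * curvature (gamMat G) i j x).transpose = -(G x * curvature (gamMat G) i j x) := by
  have hd : ∀ a b, pdm (pdm G a) b x =
      (G x * gamMat G b x + (gamMat G b x).transpose * G x) * gamMat G a x +
        G x * pdm (gamMat G a) b x + ((pdm (gamMat G a) b x).transpose * G x +
        (gamMat G a x).transpose * (G x * gamMat G b x + (gamMat G b x).transpose * G x)) := by
    intro a b
    rw [pdm_congr hG.isOpen hx (fun y hy => hG.compat hy a) b,
      pdm_add ((hG.diff hx).mul (hG.diff_gamMat hx a))
        ((hG.diff_gamMat hx a).transpose.mul (hG.diff hx)),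
      pdm_mul (hG.diff hx) (hG.diff_gamMat hx a),
      pdm_mul (hG.diff_gamMat hx a).transpose (hG.diff hx), pdm_transpose, hG.compat hx b]
  have h := pdm_comm hG.smooth hG.isOpen hx j i
  rw [hd j i, hd i j] at h
  rw [← sub_eq_zero] at h
  rw [← add_eq_zero_iff_eq_neg, ← h]
  simp only [curvature, transpose_mul, transpose_add, transpose_sub, hG.transpose_eq,
    Matrix.mul_add, Matrix.mul_sub, Matrix.add_mul, Matrix.mul_assoc]
  abel

/-- The coordinate curvature tensor has all the algebraic symmetries. -/
theorem IsMetricOn.isCurvTen : IsCurvTen (riem G x) := by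
  refine isCurvTen_of (fun i j k l => ?_) (fun i j k l => ?_) (fun i j k l => ?_)
  · rw [riem_eq, riem_eq, ← Matrix.neg_apply, ← Matrix.mul_neg]
    refine congrFun (congrFun (congrArg (G x * ·) ?_) k) l
    simp only [curvature]
    abel
  · rw [riem_eq, riem_eq, ← Matrix.neg_apply, ← hG.curvature_skew hx i j, transpose_apply]
  · simp only [riem, ← Finset.sum_add_distrib, ← mul_add]
    refine Finset.sum_eq_zero fun m _ => mul_eq_zero_of_right _ ?_
    have e : ∀ a b, (fun y => gam G y m a b) = fun y => gam G y m b a :=
      fun a b => funext fun y => hG.gam_comm y m b a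
    simp only [riemUp, e j i, e l i, e l j, Finset.sum_sub_distrib,
      hG.gam_comm x _ i j, hG.gam_comm x _ i l, hG.gam_comm x _ j l]
    ring

/-- The second Bianchi identity of a connection in matrix form. -/
theorem bianchi_connection {A : Fin 4 → Euc4 → M4} (hA : ∀ i, MSmooth (A i) U) (m i j : Fin 4) :
    (pdm (curvature A i j) m x + A m x * curvature A i j x - curvature A i j x * A m x) +
      (pdm (curvature A j m) i x + A i x * curvature A j m x - curvature A j m x * A i x) +
      (pdm (curvature A m i) j x + A j x * curvature A m i x - curvature A m i x * A j x) = 0 := by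
  have hU := hG.isOpen
  have d := fun a => (hA a).diff hU hx
  have d2 := fun a b => ((hA a).pdm hU b).diff hU hx
  have e : ∀ a b c, pdm (curvature A a b) c x = pdm (pdm (A b) a) c x - pdm (pdm (A a) b) c x +
      (pdm (A a) c x * A b x + A a x * pdm (A b) c x) -
      (pdm (A b) c x * A a x + A b x * pdm (A a) c x) := by
    intro a b c
    unfold curvature
    rw [pdm_sub (((d2 b a).sub (d2 a b)).add ((d a).mul (d b))) ((d b).mul (d a)),
      pdm_add ((d2 b a).sub (d2 a b)) ((d a).mul (d b)), pdm_sub (d2 b a) (d2 a b),
      pdm_mul (d a) (d b), pdm_mul (d b) (d a)]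
  rw [e, e, e, pdm_comm (hA j) hU hx m i, pdm_comm (hA m) hU hx i j, pdm_comm (hA i) hU hx j m]
  simp only [curvature, Matrix.mul_add, Matrix.mul_sub, Matrix.add_mul, Matrix.sub_mul,
    Matrix.mul_assoc]
  abel

/-- The second Bianchi identity. -/
theorem IsMetricOn.bianchi2 (m i j k l : Fin 4) :
    covRiem G x m i j k l + covRiem G x i j m k l + covRiem G x j m i k l = 0 := by
  have d := fun a b => (hG.smooth_curvature a b).diff hG.isOpen hx
  have e : ∀ a b c, pdm (fun y => G y * curvature (gamMat G) b c y) a x -
      ((gamMat G a x).transpose * (G x * curvature (gamMat G) b c x) +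
        G x * curvature (gamMat G) b c x * gamMat G a x) =
      G x * (pdm (curvature (gamMat G) b c) a x + gamMat G a x * curvature (gamMat G) b c x -
        curvature (gamMat G) b c x * gamMat G a x) := by
    intro a b c
    rw [pdm_mul (hG.diff hx) (d b c), hG.compat hx a]
    simp only [Matrix.mul_add, Matrix.mul_sub, Matrix.add_mul, Matrix.mul_assoc]
    abel
  rw [covRiem_eq, covRiem_eq, covRiem_eq, e, e, e, ← Matrix.add_apply, ← Matrix.add_apply]
  have hb := congrArg (G x * ·) (bianchi_connection hG hx hG.smooth_gamMat m i j)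
  simp only [Matrix.mul_add, Matrix.mul_zero] at hb
  have hanti : ∀ p q, curvature (gamMat G) q p x = -curvature (gamMat G) p q x := fun p q => by
    simp only [curvature]; abel
  have hsum : ∀ p, (gam G x p m i • (G x * curvature (gamMat G) p j x) +
      gam G x p m j • (G x * curvature (gamMat G) i p x)) +
      (gam G x p i j • (G x * curvature (gamMat G) p m x) +
      gam G x p i m • (G x * curvature (gamMat G) j p x)) +
      (gam G x p j m • (G x * curvature (gamMat G) p i x) +
      gam G x p j i • (G x * curvature (gamMat G) m p x)) = 0 := by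
    intro p
    rw [hG.gam_comm x p m i, hG.gam_comm x p m j, hG.gam_comm x p i j, hanti p j, hanti p i,
      hanti p m]
    simp only [Matrix.mul_neg, smul_neg]
    abel
  have hs := Finset.sum_eq_zero (s := Finset.univ) fun p _ => hsum p
  rw [Finset.sum_add_distrib, Finset.sum_add_distrib] at hs
  have := congrFun (congrFun (congrArg₂ (fun a b : M4 => a - b) hb hs) k) l
  simp only [Matrix.sub_apply, Matrix.zero_apply, sub_zero, Matrix.add_apply] at this ⊢
  linarith

end

end Vale.Agent.P211.Local
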