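import Vale.Agent.P211.Local.Gauge

/-!
# P211: the covariant derivative of the Weyl blocks and their divergence
-/

open Matrix
open scoped ContDiff

namespace Vale.Agent.P211.Local

open SelfDual (IsCurvTen flat flatVec kron ricTen pair)
open Spectral (IsTriple)

noncomputable section

/-- Two commuting orthogonal triples spanning the two-forms. -/
structure IsSplit (J K : Fin 3 → M4) : Prop where
  triple : IsTriple J
  comm : ∀ a b, J a * K b = K b * J a
  ortho : ∀ a b, pair (J a) (K b) = 0
  decomp : ∀ A : M4, A.transpose = -A →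
    A = ∑ a, ((pair (J a) A / 4) • J a + (pair (K a) A / 4) • K a)
  mixed : ∀ R : Ten4, IsCurvTen R → (∀ i k, ricTen R i k = 3 * (1 : M4) i k) → block R J K = 0

theorem block_swap {R : Ten4} (hR : IsCurvTen R) (J K : Fin 3 → M4) (a b : Fin 3) :
    block R K J b a = block R J K a b := by
  have hs : (flat R).transpose = flat R := by
    ext p q
    exact hR.comp_comm p q
  rw [SelfDual.block_eq_flat, SelfDual.block_eq_flat, dotProduct_mulVec, ← mulVec_transpose, hs,
    dotProduct_comm]

theorem isSplit_Jp : IsSplit Jp Jm :=
  ⟨SelfDual.isTriple_Jp, SelfDual.Jp_mul_Jm, SelfDual.pair_Jp_Jm, fun _ h => SelfDual.decomp h,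
    fun _ hR h => ((SelfDual.ricTen_eq_three_iff hR).1 h).1⟩

theorem isSplit_Jm : IsSplit Jm Jp :=
  ⟨SelfDual.isTriple_Jm, fun a b => (SelfDual.Jp_mul_Jm b a).symm,
    fun a b => by rw [SelfDual.pair_comm, SelfDual.pair_Jp_Jm],
    fun _ h => by
      conv_lhs => rw [SelfDual.decomp h]
      exact Finset.sum_congr rfl fun a _ => add_comm _ _,
    fun R hR h => by
      ext a b
      rw [block_swap hR, ((SelfDual.ricTen_eq_three_iff hR).1 h).1]
      rfl⟩

theorem block_symm {R : Ten4} (hR : IsCurvTen R) (J : Fin 3 → M4) : (block R J J).IsSymm := by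
  ext a b
  rw [transpose_apply, block_swap hR J J a b]

/-- The matrix of the commutator with `X` on a triple. -/
def adMat (J : Fin 3 → M4) (X : M4) : M3 :=
  Matrix.of fun a d => pair (J d) (X * J a - J a * X) / 4

theorem lie_mulVec (X A : M4) :
    lie X *ᵥ flatVec A = flatVec (X * A + A * X.transpose) := by
  funext p
  simp [lie, kron2, flatVec, mulVec, dotProduct, mul_apply, Fintype.sum_prod_type, one_apply,
    Finset.sum_add_distrib, mul_add, mul_comm]

variable {J K : Fin 3 → M4}

theorem IsSplit.ad_eq (h : IsSplit J K) {X : M4} (hX : X.transpose = -X) (a : Fin 3) :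
    X * J a - J a * X = ∑ d, adMat J X a d • J d := by
  have hskew : (X * J a - J a * X).transpose = -(X * J a - J a * X) := by
    rw [transpose_sub, transpose_mul, transpose_mul, hX, h.triple.skew]
    simp
  conv_lhs => rw [h.decomp _ hskew]
  refine Finset.sum_congr rfl fun d _ => ?_
  have e : pair (K d) (X * J a - J a * X) = 0 := by
    rw [SelfDual.pair_eq_trace, Matrix.mul_sub, trace_sub]
    have hKt : (K d).transpose * J a = J a * (K d).transpose := by
      have := congrArg transpose (h.comm a d)
      rw [transpose_mul, transpose_mul, h.triple.skew, Matrix.mul_neg, Matrix.neg_mul] at this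
      exact neg_injective this
    rw [← Matrix.mul_assoc, ← Matrix.mul_assoc, hKt, trace_mul_cycle, sub_self]
  simp [adMat, e]

theorem adMat_skew (hJ : IsTriple J) (X : M4) :
    (adMat J X).transpose = -adMat J X := by
  ext a d
  simp only [adMat, transpose_apply, Matrix.neg_apply, of_apply, SelfDual.pair_eq_trace,
    Matrix.mul_sub, trace_sub, hJ.skew, Matrix.neg_mul, trace_neg]
  rw [trace_mul_comm (J a) (X * J d), trace_mul_comm (J a) (J d * X), Matrix.mul_assoc X,
    Matrix.mul_assoc (J d) X, trace_mul_comm X (J d * J a), Matrix.mul_assoc (J d)]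
  ring

theorem block_inFrame_covRiem {G P : Euc4 → M4} {U : Set Euc4} (hG : IsMetricOn G U)
    (hP : IsFrameOn G P U) {x : Euc4} (hx : x ∈ U) (h : IsSplit J K) (m : Fin 4) :
    block (inFrame (P x) (covRiem G x m)) J J =
      pdm (fun y => block (frameRiem G P y) J J) m x -
        adMat J (omega G P m x) * block (frameRiem G P x) J J -
        block (frameRiem G P x) J J * (adMat J (omega G P m x)).transpose := by
  have hw := omega_skew hG hP hx m
  have hd' := hP.smooth.diff hG.isOpen hx
  have hK : MDiff (fun y => kron (P y)) x := fun p q => (hd' p.1 q.1).fun_mul (hd' p.2 q.2)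
  have hF : MDiff (fun y => flat (frameRiem G P y)) x := by
    simp only [frameRiem, SelfDual.flat_inFrame]
    exact (hK.transpose.mul (diff_riem hG hx)).mul hK
  have hl : ∀ a, lie (omega G P m x) *ᵥ flatVec (J a) =
      ∑ d, adMat J (omega G P m x) a d • flatVec (J d) := by
    intro a
    rw [lie_mulVec, hw, Matrix.mul_neg, ← sub_eq_add_neg, h.ad_eq hw, SelfDual.flatVec_sum_smul]
  have hpd : ∀ a b, pdm (fun y => block (frameRiem G P y) J J) m x a b =
      1 / 8 * (flatVec (J a) ⬝ᵥ pdm (fun y => flat (frameRiem G P y)) m x *ᵥ flatVec (J b)) := by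
    intro a b
    simp only [pdm, of_apply, SelfDual.block_eq_flat, dotProduct, mulVec, Finset.mul_sum]
    have hc : ∀ c : ℝ, ∀ p q, pd (fun y => c * flat (frameRiem G P y) p q) m x =
        c * pd (fun y => flat (frameRiem G P y) p q) m x := fun c p q => by
      rw [pd_mul (differentiableAt_const c) (hF p q), pd_const, zero_mul, zero_add]
    rw [pd_sum _ fun p _ => DifferentiableAt.fun_sum fun q _ =>
      (((hF p q).mul_const _).const_mul _).const_mul _]
    refine Finset.sum_congr rfl fun p _ => ?_
    rw [pd_sum _ fun q _ => (((hF p q).mul_const _).const_mul _).const_mul _]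
    refine Finset.sum_congr rfl fun q _ => ?_
    have e : (fun y => 1 / 8 * (flatVec (J a) p *
        (flat (frameRiem G P y) p q * flatVec (J b) q))) =
        fun y => (1 / 8 * flatVec (J a) p * flatVec (J b) q) * flat (frameRiem G P y) p q :=
      funext fun y => by ring
    rw [e, hc]
    ring
  ext a b
  rw [Matrix.sub_apply, Matrix.sub_apply, hpd, SelfDual.block_eq_flat,
    flat_inFrame_covRiem hG hP hx, sub_mulVec, sub_mulVec, dotProduct_sub, dotProduct_sub,
    ← mulVec_mulVec, ← mulVec_mulVec, hl b, dotProduct_mulVec _ (lie _).transpose, vecMul_transpose,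
    hl a]
  simp only [mul_apply, transpose_apply, SelfDual.block_eq_flat, sum_dotProduct, smul_dotProduct,
    mulVec_sum, mulVec_smul, dotProduct_sum, dotProduct_smul, smul_eq_mul, Finset.mul_sum,
    mul_sub, mul_assoc]
  congr 1
  · congr 1
    exact Finset.sum_congr rfl fun d _ => by ring
  · exact Finset.sum_congr rfl fun d _ => by ring

/-- The divergence identity for an algebraic first derivative of the curvature. -/
theorem div_block (h : IsSplit J K) (C : Fin 4 → Ten4) (hC : ∀ m, IsCurvTen (C m))
    (hric : ∀ m i k, ricTen (C m) i k = 0) (hdiv : ∀ b c d, ∑ m, C m m b c d = 0) (i : Fin 3) :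
    ∑ j, J j *ᵥ (fun m => block (C m) J J i j) = 0 := by
  have hmix : ∀ m, block (C m) J K = 0 := by
    intro m
    have hS : IsCurvTen SelfDual.sphereTen :=
      ⟨fun i j k l => by simp only [SelfDual.sphereTen]; ring,
        fun i j k l => by simp only [SelfDual.sphereTen]; ring,
        fun i j k l => by simp only [SelfDual.sphereTen, one_apply, eq_comm]; ring,
        fun i j k l => by simp only [SelfDual.sphereTen, one_apply, eq_comm]; ring⟩
    have hS3 : ∀ i k, ricTen SelfDual.sphereTen i k = 3 * (1 : M4) i k := by
      intro i k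
      simp [ricTen, SelfDual.sphereTen, one_apply, Finset.sum_sub_distrib]
      split_ifs <;> norm_num
    set T : Ten4 := fun i j k l => C m i j k l + SelfDual.sphereTen i j k l with hT
    have hTc : IsCurvTen T := by
      refine ⟨fun i j k l => ?_, fun i j k l => ?_, fun i j k l => ?_, fun i j k l => ?_⟩ <;>
        simp only [hT]
      · linarith [(hC m).anti12 i j k l, hS.anti12 i j k l]
      · linarith [(hC m).anti34 i j k l, hS.anti34 i j k l]
      · linarith [(hC m).swap i j k l, hS.swap i j k l]
      · linarith [(hC m).bianchi i j k l, hS.bianchi i j k l]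
    have hT3 : ∀ i k, ricTen T i k = 3 * (1 : M4) i k := by
      intro i k
      simp only [ricTen, hT, Finset.sum_add_distrib] at *
      rw [hric m i k, hS3 i k, zero_add]
    have h1 := h.mixed T hTc hT3
    have h2 := h.mixed _ hS hS3
    ext a b
    have e : block T J K a b = block (C m) J K a b + block SelfDual.sphereTen J K a b := by
      simp only [block, of_apply, hT, mul_add, add_mul, Finset.sum_add_distrib]
    rw [h1, h2] at e
    simpa using e.symm
  set M : Fin 4 → M4 := fun m => Matrix.of fun p q =>
    (flat (C m) *ᵥ flatVec (J i)) (p, q) with hMdef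
  have hMskew : ∀ m, (M m).transpose = -M m := by
    intro m
    ext p q
    simp only [hMdef, transpose_apply, Matrix.neg_apply, of_apply, mulVec, dotProduct, flat,
      SelfDual.comp, (hC m).anti12 p q, neg_mul, Finset.sum_neg_distrib]
  have hM : ∀ m, M m = ∑ j, (2 * block (C m) J J i j) • J j := by
    intro m
    conv_lhs => rw [h.decomp _ (hMskew m)]
    refine Finset.sum_congr rfl fun j _ => ?_
    have e : ∀ L : Fin 3 → M4, pair (L j) (M m) = 8 * block (C m) L J j i := by
      intro L
      rw [SelfDual.block_eq_flat]
      simp only [pair, hMdef, of_apply, dotProduct, flatVec, Fintype.sum_prod_type]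
      ring
    rw [e, e, block_swap (hC m) J J i j, block_swap (hC m) J K i j, hmix, Matrix.zero_apply]
    simp only [mul_zero, zero_div, zero_smul, add_zero]
    congr 1
    ring
  funext b
  have hz : ∑ m, M m m b = 0 := by
    simp only [hMdef, of_apply, mulVec, dotProduct, flat, SelfDual.comp]
    rw [Finset.sum_comm]
    refine Finset.sum_eq_zero fun q _ => ?_
    rw [← Finset.sum_mul, hdiv, zero_mul]
  simp only [hM, Matrix.sum_apply, Matrix.smul_apply, smul_eq_mul] at hz
  simp only [Finset.sum_apply, mulVec, dotProduct, Pi.zero_apply]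
  have hs := fun j m => SelfDual.skew_apply (h.triple.skew j) b m
  rw [Finset.sum_comm] at hz
  rw [Finset.sum_congr rfl fun j _ => Finset.sum_congr rfl fun m _ =>
    show 2 * block (C m) J J i j * J j m b = -2 * (J j b m * block (C m) J J i j) by
      rw [hs j m]; ring] at hz
  simp only [← Finset.mul_sum] at hz
  linarith

variable {G P : Euc4 → M4} {U : Set Euc4} (hG : IsMetricOn G U) (hP : IsFrameOn G P U)
variable {x : Euc4} (hx : x ∈ U) (hE : IsEinsteinThree G U)
include hG hP hx hE

/-- The covariant derivative of a Weyl block is divergence free. -/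
theorem div_weyl (h : IsSplit J K) (i : Fin 3) :
    ∑ j, J j *ᵥ (fun m => block (covFrame G P x m) J J i j) = 0 := by
  refine div_block h (covFrame G P x) (isCurvTen_covFrame hG hx) (fun m a c => ?_)
    (div_covFrame hG hP hx hE) i
  simp only [ricTen, covFrame]
  rw [Finset.sum_comm]
  simp only [← Finset.mul_sum]
  exact Finset.sum_eq_zero fun t _ =>
    mul_eq_zero_of_right _ (ricTen_inFrame_covRiem hG hP hx hE t a c)

end

end Vale.Agent.P211.Local
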