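import Vale.Agent.P211.Statement.Defs

/-!
# P211: calculus of matrix fields on an open subset of `ℝ⁴`
-/

open Matrix
open scoped ContDiff Topology

namespace Vale.Agent.P211.Local

noncomputable section

variable {ι κ ν : Type*} [Fintype κ]
variable {U : Set Euc4} {x : Euc4}

/-- The entrywise partial derivative of a matrix field. -/
def pdm (A : Euc4 → Matrix ι ν ℝ) (m : Fin 4) (x : Euc4) : Matrix ι ν ℝ :=
  Matrix.of fun i j => pd (fun y => A y i j) m x

/-- The entries of a matrix field are smooth on `U`. -/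
def MSmooth (A : Euc4 → Matrix ι ν ℝ) (U : Set Euc4) : Prop :=
  ∀ i j, ContDiffOn ℝ ∞ (fun y => A y i j) U

/-- The entries of a matrix field are differentiable at `x`. -/
def MDiff (A : Euc4 → Matrix ι ν ℝ) (x : Euc4) : Prop :=
  ∀ i j, DifferentiableAt ℝ (fun y => A y i j) x

theorem differentiableAt_of_smooth {f : Euc4 → ℝ} (hf : ContDiffOn ℝ ∞ f U) (hU : IsOpen U)
    (hx : x ∈ U) : DifferentiableAt ℝ f x :=
  (hf.contDiffAt (hU.mem_nhds hx)).differentiableAt (by simp)

theorem MSmooth.diff {A : Euc4 → Matrix ι ν ℝ} (hA : MSmooth A U) (hU : IsOpen U)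
    (hx : x ∈ U) : MDiff A x :=
  fun i j => differentiableAt_of_smooth (hA i j) hU hx

theorem pd_smooth {f : Euc4 → ℝ} (hf : ContDiffOn ℝ ∞ f U) (hU : IsOpen U) (m : Fin 4) :
    ContDiffOn ℝ ∞ (fun y => pd f m y) U :=
  (hf.fderiv_of_isOpen hU (m := ∞) (by simp)).clm_apply contDiffOn_const

theorem MSmooth.pdm {A : Euc4 → Matrix ι ν ℝ} (hA : MSmooth A U) (hU : IsOpen U) (m : Fin 4) :
    MSmooth (pdm A m) U :=
  fun i j => pd_smooth (hA i j) hU m

theorem MSmooth.add {A B : Euc4 → Matrix ι ν ℝ} (hA : MSmooth A U) (hB : MSmooth B U) :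
    MSmooth (fun y => A y + B y) U :=
  fun i j => (hA i j).add (hB i j)

theorem MSmooth.sub {A B : Euc4 → Matrix ι ν ℝ} (hA : MSmooth A U) (hB : MSmooth B U) :
    MSmooth (fun y => A y - B y) U :=
  fun i j => (hA i j).sub (hB i j)

theorem MSmooth.transpose {A : Euc4 → Matrix ι ν ℝ} (hA : MSmooth A U) :
    MSmooth (fun y => (A y).transpose) U :=
  fun i j => hA j i

theorem MSmooth.mul {A : Euc4 → Matrix ι κ ℝ} {B : Euc4 → Matrix κ ν ℝ} (hA : MSmooth A U)
    (hB : MSmooth B U) : MSmooth (fun y => A y * B y) U := fun i j => by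
  simp only [mul_apply]
  exact ContDiffOn.sum fun l _ => (hA i l).mul (hB l j)

theorem MDiff.add {A B : Euc4 → Matrix ι ν ℝ} (hA : MDiff A x) (hB : MDiff B x) :
    MDiff (fun y => A y + B y) x :=
  fun i j => (hA i j).add (hB i j)

theorem MDiff.sub {A B : Euc4 → Matrix ι ν ℝ} (hA : MDiff A x) (hB : MDiff B x) :
    MDiff (fun y => A y - B y) x :=
  fun i j => (hA i j).sub (hB i j)

theorem MDiff.transpose {A : Euc4 → Matrix ι ν ℝ} (hA : MDiff A x) :
    MDiff (fun y => (A y).transpose) x :=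
  fun i j => hA j i

theorem MDiff.mul {A : Euc4 → Matrix ι κ ℝ} {B : Euc4 → Matrix κ ν ℝ} (hA : MDiff A x)
    (hB : MDiff B x) : MDiff (fun y => A y * B y) x := fun i j => by
  simp only [mul_apply]
  exact DifferentiableAt.fun_sum fun l _ => (hA i l).mul (hB l j)

theorem pd_add {f g : Euc4 → ℝ} (hf : DifferentiableAt ℝ f x) (hg : DifferentiableAt ℝ g x)
    (m : Fin 4) : pd (fun y => f y + g y) m x = pd f m x + pd g m x := by
  simp [pd, fderiv_fun_add hf hg]

theorem pd_sub {f g : Euc4 → ℝ} (hf : DifferentiableAt ℝ f x) (hg : DifferentiableAt ℝ g x)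
    (m : Fin 4) : pd (fun y => f y - g y) m x = pd f m x - pd g m x := by
  simp [pd, fderiv_fun_sub hf hg]

theorem pd_mul {f g : Euc4 → ℝ} (hf : DifferentiableAt ℝ f x) (hg : DifferentiableAt ℝ g x)
    (m : Fin 4) : pd (fun y => f y * g y) m x = pd f m x * g x + f x * pd g m x := by
  simp [pd, fderiv_fun_mul hf hg]
  ring

theorem pd_sum {τ : Type*} (s : Finset τ) {f : τ → Euc4 → ℝ}
    (hf : ∀ t ∈ s, DifferentiableAt ℝ (f t) x) (m : Fin 4) :
    pd (fun y => ∑ t ∈ s, f t y) m x = ∑ t ∈ s, pd (f t) m x := by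
  simp [pd, fderiv_fun_sum hf]

theorem pd_const (c : ℝ) (m : Fin 4) : pd (fun _ : Euc4 => c) m x = 0 := by
  simp [pd]

theorem pd_congr {f g : Euc4 → ℝ} (hU : IsOpen U) (hx : x ∈ U) (h : ∀ y ∈ U, f y = g y)
    (m : Fin 4) : pd f m x = pd g m x := by
  simp only [pd, (Filter.eventuallyEq_of_mem (hU.mem_nhds hx) h).fderiv_eq]

/-- Mixed partial derivatives commute. -/
theorem pd_comm {f : Euc4 → ℝ} (hf : ContDiffOn ℝ ∞ f U) (hU : IsOpen U) (hx : x ∈ U)
    (i j : Fin 4) : pd (fun y => pd f i y) j x = pd (fun y => pd f j y) i x := by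
  have h1 : DifferentiableAt ℝ (fderiv ℝ f) x :=
    ((hf.contDiffAt (hU.mem_nhds hx)).fderiv_right (m := ∞) (by simp)).differentiableAt (by simp)
  have e : ∀ a b : Fin 4, pd (fun y => pd f a y) b x =
      fderiv ℝ (fderiv ℝ f) x (EuclideanSpace.single b 1) (EuclideanSpace.single a 1) := by
    intro a b
    simp only [pd]
    rw [fderiv_clm_apply h1 (differentiableAt_const _)]
    simp
  rw [e, e]
  exact (hf.contDiffAt (hU.mem_nhds hx)).isSymmSndFDerivAt
    (by simp only [minSmoothness_of_isRCLikeNormedField]; exact WithTop.coe_le_coe.2 le_top) _ _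

theorem pdm_add {A B : Euc4 → Matrix ι ν ℝ} (hA : MDiff A x) (hB : MDiff B x) (m : Fin 4) :
    pdm (fun y => A y + B y) m x = pdm A m x + pdm B m x := by
  ext i j
  exact pd_add (hA i j) (hB i j) m

theorem pdm_sub {A B : Euc4 → Matrix ι ν ℝ} (hA : MDiff A x) (hB : MDiff B x) (m : Fin 4) :
    pdm (fun y => A y - B y) m x = pdm A m x - pdm B m x := by
  ext i j
  exact pd_sub (hA i j) (hB i j) m

theorem pdm_transpose (A : Euc4 → Matrix ι ν ℝ) (m : Fin 4) :
    pdm (fun y => (A y).transpose) m x = (pdm A m x).transpose := rfl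

theorem pdm_mul {A : Euc4 → Matrix ι κ ℝ} {B : Euc4 → Matrix κ ν ℝ} (hA : MDiff A x)
    (hB : MDiff B x) (m : Fin 4) :
    pdm (fun y => A y * B y) m x = pdm A m x * B x + A x * pdm B m x := by
  ext i j
  simp only [pdm, of_apply, mul_apply, Matrix.add_apply, ← Finset.sum_add_distrib]
  rw [pd_sum _ (fun l _ => (hA i l).fun_mul (hB l j))]
  exact Finset.sum_congr rfl fun l _ => pd_mul (hA i l) (hB l j) m

theorem pdm_const (C : Matrix ι ν ℝ) (m : Fin 4) : pdm (fun _ : Euc4 => C) m x = 0 := by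
  ext i j
  exact pd_const _ m

theorem pdm_congr {A B : Euc4 → Matrix ι ν ℝ} (hU : IsOpen U) (hx : x ∈ U)
    (h : ∀ y ∈ U, A y = B y) (m : Fin 4) : pdm A m x = pdm B m x := by
  ext i j
  exact pd_congr hU hx (fun y hy => by rw [h y hy]) m

theorem pdm_comm {A : Euc4 → Matrix ι ν ℝ} (hA : MSmooth A U) (hU : IsOpen U) (hx : x ∈ U)
    (i j : Fin 4) : pdm (pdm A i) j x = pdm (pdm A j) i x := by
  ext a b
  exact pd_comm (hA a b) hU hx i j

/-- The inverse of a smooth field of invertible matrices is smooth. -/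
theorem MSmooth.inv {A : Euc4 → M4} (hA : MSmooth A U) (hd : ∀ y ∈ U, (A y).det ≠ 0) :
    MSmooth (fun y => (A y)⁻¹) U := by
  intro i j
  have hdet : ∀ {B : Euc4 → M4}, MSmooth B U → ContDiffOn ℝ ∞ (fun y => (B y).det) U := by
    intro B hB
    simp only [Matrix.det_apply']
    exact ContDiffOn.sum fun p _ => contDiffOn_const.mul (contDiffOn_prod fun l _ => hB _ _)
  have hadj : ContDiffOn ℝ ∞ (fun y => (A y).adjugate i j) U := by
    simp only [adjugate_apply]
    refine hdet fun a b => ?_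
    simp only [updateRow_apply]
    split_ifs with h
    · exact contDiffOn_const
    · exact hA a b
  refine ((hadj.div (hdet hA) hd).congr fun y hy => ?_)
  simp [Matrix.inv_def, Ring.inverse_eq_inv', inv_mul_eq_div]

end

end Vale.Agent.P211.Local
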