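import Vale.Agent.P211.Local.Weitz.Scalar

/-!
# P211: the input of the scalar lemma in one chart
-/

open Matrix
open scoped ContDiff

namespace Vale.Agent.P211.Local

noncomputable section

variable {G P : Euc4 → M4} {U : Set Euc4} (hG : IsMetricOn G U) (hP : IsFrameOn G P U)
variable (hE : IsEinsteinThree G U) (hK : SecNonneg G U)
include hG hP hE

theorem wB_symm_trace {x : Euc4} (hx : x ∈ U) :
    ((wB Jp G P x).IsSymm ∧ (wB Jp G P x).trace = 0) ∧
      (wB Jm G P x).IsSymm ∧ (wB Jm G P x).trace = 0 :=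
  SelfDual.weyl_symm_trace (isCurvTen_frameRiem hG hx) (ricTen_frameRiem hG hP hx hE)

include hK

/-- Both tops exist, are nonnegative and add up to at most two. -/
theorem exists_tops {x : Euc4} (hx : x ∈ U) :
    ∃ p q : ℝ, Spectral.IsTop (wB Jp G P x) p ∧ Spectral.IsTop (wB Jm G P x) q ∧
      0 ≤ p ∧ 0 ≤ q ∧ p + q ≤ 2 := by
  obtain ⟨⟨hp, hpt⟩, hq, hqt⟩ := wB_symm_trace hG hP hE hx
  obtain ⟨p, htp⟩ := Spectral.exists_isTop hp
  obtain ⟨q, htq⟩ := Spectral.exists_isTop hq
  exact ⟨p, q, htp, htq, htp.nonneg hpt, htq.nonneg hqt,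
    SelfDual.top_add_top_le (isCurvTen_frameRiem hG hx) (ricTen_frameRiem hG hP hx hE)
      (sec_frameRiem hG hx hK) htp htq⟩

/-- The differential inequality for both Weyl halves, with any shift above four. -/
theorem lap_F_ge_both {a : ℝ} (ha : 4 < a) {k : ℕ} (hk : 2 ≤ k) {e : ℝ} (he : 0 ≤ e)
    {x : Euc4} (hx : x ∈ U) {p q : ℝ} (hp : Spectral.IsTop (wB Jp G P x) p)
    (hq : Spectral.IsTop (wB Jm G P x) q) :
    (2 / 3 * gradSq G (fun y => Spectral.F a k (wB Jp G P y)) x ≤
        (Spectral.F a k (wB Jp G P x) + e) * (lap G (fun y => Spectral.F a k (wB Jp G P y)) x -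
          (6 * p * (1 - p) - Spectral.reactErr a p k))) ∧
      2 / 3 * gradSq G (fun y => Spectral.F a k (wB Jm G P y)) x ≤
        (Spectral.F a k (wB Jm G P x) + e) * (lap G (fun y => Spectral.F a k (wB Jm G P y)) x -
          (6 * q * (1 - q) - Spectral.reactErr a q k)) := by
  have hadm : ∀ y ∈ U, (Spectral.shift a (wB Jp G P y)).PosDef ∧
      (Spectral.shift a (wB Jm G P y)).PosDef := by
    intro y hy
    obtain ⟨⟨h1, h1t⟩, h2, h2t⟩ := wB_symm_trace hG hP hE hy
    obtain ⟨u, v, hu, hv, hu0, hv0, huv⟩ := exists_tops hG hP hE hK hy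
    exact ⟨Spectral.posDef_shift h1 h1t hu (by linarith),
      Spectral.posDef_shift h2 h2t hv (by linarith)⟩
  have hst := fun y hy => wB_symm_trace hG hP hE (x := y) hy
  exact ⟨lap_F_ge hG hP hk (by linarith) hE isSplit_Jp (fun y hy => (hst y hy).1.1)
      (fun y hy => (hst y hy).1.2) (fun y hy => (hadm y hy).1) he hx hp,
    lap_F_ge hG hP hk (by linarith) hE isSplit_Jm (fun y hy => (hst y hy).2.1)
      (fun y hy => (hst y hy).2.2) (fun y hy => (hadm y hy).2) he hx hq⟩

end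

end Vale.Agent.P211.Local
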