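import Vale.Agent.P211.Local.Riem

/-!
# P211: a smooth positively oriented orthonormal frame on a chart
-/

open Matrix
open scoped ContDiff

namespace Vale.Agent.P211.Local

noncomputable section

/-- A smooth positively oriented orthonormal frame on `U`. -/
structure IsFrameOn (G P : Euc4 → M4) (U : Set Euc4) : Prop where
  smooth : MSmooth P U
  frame : ∀ y ∈ U, IsPosFrame (G y) (P y)

/-- The inner product of two vector fields. -/
def gip (G : Euc4 → M4) (u v : Euc4 → Fin 4 → ℝ) (y : Euc4) : ℝ := u y ⬝ᵥ G y *ᵥ v y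

variable {G : Euc4 → M4} {U : Set Euc4} (hG : IsMetricOn G U)
include hG

theorem gip_comm (u v : Euc4 → Fin 4 → ℝ) (y : Euc4) : gip G u v y = gip G v u y := by
  rw [gip, gip, dotProduct_mulVec, ← mulVec_transpose, hG.transpose_eq, dotProduct_comm]

theorem gip_smooth {u v : Euc4 → Fin 4 → ℝ} (hu : ∀ i, ContDiffOn ℝ ∞ (fun y => u y i) U)
    (hv : ∀ i, ContDiffOn ℝ ∞ (fun y => v y i) U) : ContDiffOn ℝ ∞ (gip G u v) U := by
  unfold gip
  simp only [dotProduct, mulVec]
  exact ContDiffOn.sum fun i _ => (hu i).mul (ContDiffOn.sum fun j _ => (hG.smooth i j).mul (hv j))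

/-- One step of the Gram-Schmidt process. -/
theorem exists_next {n : ℕ} (E : Fin n → Euc4 → Fin 4 → ℝ) (k : Fin 4)
    (hE : ∀ j i, ContDiffOn ℝ ∞ (fun y => E j y i) U)
    (hon : ∀ y ∈ U, ∀ j l, gip G (E j) (E l) y = if j = l then 1 else 0)
    (htri : ∀ y j i, k ≤ i → E j y i = 0) :
    ∃ e : Euc4 → Fin 4 → ℝ, (∀ i, ContDiffOn ℝ ∞ (fun y => e y i) U) ∧
      (∀ y i, k < i → e y i = 0) ∧
      ∀ y ∈ U, gip G e e y = 1 ∧ (∀ j, gip G (E j) e y = 0) ∧ 0 < e y k := by
  obtain ⟨dk, hdk⟩ : ∃ dk : Euc4 → Fin 4 → ℝ, dk = fun _ => Pi.single k 1 := ⟨_, rfl⟩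
  obtain ⟨v, hv⟩ : ∃ v : Euc4 → Fin 4 → ℝ,
      v = fun y => dk y - ∑ j, gip G (E j) dk y • E j y := ⟨_, rfl⟩
  have hvk : ∀ y, v y k = 1 := fun y => by simp [hv, hdk, Finset.sum_apply, htri y _ k le_rfl]
  have hvtri : ∀ y i, k < i → v y i = 0 := fun y i hi => by
    simp [hv, hdk, Finset.sum_apply, htri y _ i hi.le, hi.ne']
  have hvs : ∀ i, ContDiffOn ℝ ∞ (fun y => v y i) U := fun i => by
    simp only [hv, Pi.sub_apply, Finset.sum_apply, Pi.smul_apply, smul_eq_mul]
    have hd : ∀ l, ContDiffOn ℝ ∞ (fun y => dk y l) U := fun l => by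
      rw [hdk]
      exact contDiffOn_const
    have hp : ∀ j, ContDiffOn ℝ ∞ (gip G (E j) dk) U := fun j => gip_smooth hG (hE j) hd
    exact (hd i).sub (ContDiffOn.sum fun j _ => (hp j).mul (hE j i))
  have hvo : ∀ y ∈ U, ∀ j, gip G (E j) v y = 0 := by
    intro y hy j
    have h : ∀ l, E j y ⬝ᵥ G y *ᵥ E l y = if j = l then (1 : ℝ) else 0 := fun l => hon y hy j l
    simp only [gip, hv, mulVec_sub, mulVec_sum, mulVec_smul, dotProduct_sub, dotProduct_sum,
      dotProduct_smul, h, smul_eq_mul]
    simp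
  have hpos : ∀ y ∈ U, 0 < gip G v v y := by
    intro y hy
    have hne : v y ≠ 0 := fun h => by simpa [h] using (hvk y).symm
    simpa [gip] using (hG.posDef y hy).dotProduct_mulVec_pos hne
  refine ⟨fun y => (Real.sqrt (gip G v v y))⁻¹ • v y, fun i => ?_, fun y i hi => ?_,
    fun y hy => ⟨?_, fun j => ?_, ?_⟩⟩
  · simp only [Pi.smul_apply, smul_eq_mul]
    refine (ContDiffOn.inv ?_ fun y hy => (Real.sqrt_pos.2 (hpos y hy)).ne').mul (hvs i)
    exact (gip_smooth hG hvs hvs).sqrt fun y hy => (hpos y hy).ne'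
  · simp [hvtri y i hi]
  · simp only [gip, mulVec_smul, dotProduct_smul, smul_dotProduct, smul_eq_mul]
    rw [← mul_assoc, ← mul_inv]
    rw [show v y ⬝ᵥ G y *ᵥ v y = gip G v v y from rfl, Real.mul_self_sqrt (hpos y hy).le,
      inv_mul_cancel₀ (hpos y hy).ne']
  · simp only [gip, mulVec_smul, dotProduct_smul, smul_eq_mul]
    rw [show E j y ⬝ᵥ G y *ᵥ v y = gip G (E j) v y from rfl, hvo y hy j, mul_zero]
  · simp [hvk y, Real.sqrt_pos, hpos y hy]

/-- A smooth positively oriented orthonormal frame. -/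
theorem exists_frame : ∃ P : Euc4 → M4, IsFrameOn G P U := by
  obtain ⟨a, ha, hat, hao⟩ := exists_next hG ![] 0 (fun j => j.elim0) (fun y _ j => j.elim0)
    (fun y j => j.elim0)
  obtain ⟨b, hb, hbt, hbo⟩ := exists_next hG ![a] 1 (fun j => by fin_cases j; simpa using ha)
    (fun y hy j l => by fin_cases j; fin_cases l; simpa using (hao y hy).1)
    (fun y j i hi => by
      fin_cases j
      simpa using hat y i (lt_of_lt_of_le (by decide) hi))
  obtain ⟨c, hc, hct, hco⟩ := exists_next hG ![a, b] 2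
    (fun j => by fin_cases j <;> simp <;> assumption)
    (fun y hy j l => by
      have h := (hbo y hy).2.1 0
      simp at h
      fin_cases j <;> fin_cases l <;> simp [(hao y hy).1, (hbo y hy).1, h, gip_comm hG b a])
    (fun y j i hi => by
      fin_cases j
      · simpa using hat y i (lt_of_lt_of_le (by decide) hi)
      · simpa using hbt y i (lt_of_lt_of_le (by decide) hi))
  obtain ⟨d, hd, hdt, hdo⟩ := exists_next hG ![a, b, c] 3
    (fun j => by fin_cases j <;> simp <;> assumption)
    (fun y hy j l => by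
      have h := (hbo y hy).2.1 0
      have h1 := (hco y hy).2.1 0
      have h2 := (hco y hy).2.1 1
      simp at h h1 h2
      fin_cases j <;> fin_cases l <;>
        simp [(hao y hy).1, (hbo y hy).1, (hco y hy).1, h, h1, h2, gip_comm hG b a,
          gip_comm hG c a, gip_comm hG c b])
    (fun y j i hi => by
      fin_cases j
      · simpa using hat y i (lt_of_lt_of_le (by decide) hi)
      · simpa using hbt y i (lt_of_lt_of_le (by decide) hi)
      · simpa using hct y i (lt_of_lt_of_le (by decide) hi))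
  refine ⟨fun y => Matrix.of fun i j => ![a, b, c, d] j y i, ?_, fun y hy => ⟨?_, ?_⟩⟩
  · intro i j
    fin_cases j <;> simp <;> first | exact ha i | exact hb i | exact hc i | exact hd i
  · have h := (hbo y hy).2.1 0
    have h1 := (hco y hy).2.1 0
    have h2 := (hco y hy).2.1 1
    have k0 := (hdo y hy).2.1 0
    have k1 := (hdo y hy).2.1 1
    have k2 := (hdo y hy).2.1 2
    simp at h h1 h2 k0 k1 k2
    ext p q
    have e : ((Matrix.of fun i j => ![a, b, c, d] j y i).transpose * G y *
        Matrix.of fun i j => ![a, b, c, d] j y i) p q =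
        gip G (![a, b, c, d] p) (![a, b, c, d] q) y := by
      rw [Matrix.mul_assoc]
      rfl
    rw [e]
    fin_cases p <;> fin_cases q <;>
      simp [(hao y hy).1, (hbo y hy).1, (hco y hy).1, (hdo y hy).1, h, h1, h2, k0, k1, k2,
        gip_comm hG b a, gip_comm hG c a, gip_comm hG c b, gip_comm hG d a, gip_comm hG d b,
        gip_comm hG d c]
  · have ht : (Matrix.of fun i j => ![a, b, c, d] j y i).BlockTriangular id := by
      intro i j hij
      simp only [id_eq] at hij
      fin_cases j <;> simp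
      · exact hat y i hij
      · exact hbt y i hij
      · exact hct y i hij
      · exact hdt y i hij
    rw [det_of_isUpperTriangular ht]
    refine Finset.prod_pos fun i _ => ?_
    fin_cases i <;> simp
    · exact (hao y hy).2.2
    · exact (hbo y hy).2.2
    · exact (hco y hy).2.2
    · exact (hdo y hy).2.2

end

end Vale.Agent.P211.Local
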