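import Vale.Agent.P211.Local.Frame
import Vale.Agent.P211.Alg.Planes

/-!
# P211: the curvature and its covariant derivative in an orthonormal frame
-/

open Matrix
open scoped ContDiff

namespace Vale.Agent.P211.Local

open SelfDual (IsCurvTen flat flatVec kron ricTen)

noncomputable section

/-- The Kronecker product on index pairs. -/
def kron2 (A B : M4) : Matrix (Fin 4 × Fin 4) (Fin 4 × Fin 4) ℝ :=
  Matrix.of fun p q => A p.1 q.1 * B p.2 q.2

/-- The action of a linear map on two-tensors. -/
def lie (X : M4) : Matrix (Fin 4 × Fin 4) (Fin 4 × Fin 4) ℝ := kron2 X 1 + kron2 1 X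

/-- The connection matrix of the frame `P`. -/
def omega (G P : Euc4 → M4) (m : Fin 4) (x : Euc4) : M4 :=
  (P x).transpose * G x * (gamMat G m x * P x + pdm P m x)

/-- The curvature in the frame `P`. -/
def frameRiem (G P : Euc4 → M4) (x : Euc4) : Ten4 := inFrame (P x) (riem G x)

/-- The covariant derivative of the curvature in the frame `P`. -/
def covFrame (G P : Euc4 → M4) (x : Euc4) (m : Fin 4) : Ten4 :=
  fun a b c d => ∑ t, P x t m * inFrame (P x) (covRiem G x t) a b c d

theorem kron2_mul (A B C D : M4) : kron2 A B * kron2 C D = kron2 (A * C) (B * D) := by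
  ext p q
  simp only [kron2, of_apply, mul_apply, Fintype.sum_prod_type, Finset.sum_mul_sum]
  exact Finset.sum_congr rfl fun i _ => Finset.sum_congr rfl fun j _ => by ring

theorem kron_eq (A : M4) : kron A = kron2 A A := rfl

theorem lie_mul_left (X : M4) (A : M4) :
    lie X * kron A = kron2 (X * A) A + kron2 A (X * A) := by
  rw [lie, kron_eq, Matrix.add_mul, kron2_mul, kron2_mul, Matrix.one_mul]

theorem lie_mul_right (X : M4) (A : M4) :
    kron A * lie X = kron2 (A * X) A + kron2 A (A * X) := by
  rw [lie, kron_eq, Matrix.mul_add, kron2_mul, kron2_mul, Matrix.mul_one]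

theorem lie_row (X : M4) (S : Matrix (Fin 4 × Fin 4) (Fin 4 × Fin 4) ℝ) (i j : Fin 4)
    (q : Fin 4 × Fin 4) : ((lie X).transpose * S) (i, j) q =
      (∑ p, X p i * S (p, j) q) + ∑ p, X p j * S (i, p) q := by
  simp [lie, kron2, mul_apply, Fintype.sum_prod_type, add_mul, Finset.sum_add_distrib, one_apply]

theorem lie_col (X : M4) (S : Matrix (Fin 4 × Fin 4) (Fin 4 × Fin 4) ℝ) (k l : Fin 4)
    (q : Fin 4 × Fin 4) : (S * lie X) q (k, l) =
      (∑ p, S q (p, l) * X p k) + ∑ p, S q (k, p) * X p l := by
  simp [lie, kron2, mul_apply, Fintype.sum_prod_type, mul_add, Finset.sum_add_distrib, one_apply]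

theorem flat_covRiem (G : Euc4 → M4) (x : Euc4) (m : Fin 4) :
    flat (covRiem G x m) = pdm (fun y => flat (riem G y)) m x -
      (lie (gamMat G m x)).transpose * flat (riem G x) -
      flat (riem G x) * lie (gamMat G m x) := by
  ext ⟨i, j⟩ ⟨k, l⟩
  rw [Matrix.sub_apply, Matrix.sub_apply, lie_row, lie_col]
  simp only [flat, SelfDual.comp, covRiem, pdm, gamMat, of_apply, Finset.sum_add_distrib]
  rw [Finset.sum_congr rfl fun (p : Fin 4) _ => mul_comm (riem G x i j p l) (gam G x p m k),
    Finset.sum_congr rfl fun (p : Fin 4) _ => mul_comm (riem G x i j k p) (gam G x p m l)]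
  ring

variable {G P : Euc4 → M4} {U : Set Euc4} (hG : IsMetricOn G U) (hP : IsFrameOn G P U)
variable {x : Euc4} (hx : x ∈ U)
include hG hP hx

omit hG in
theorem frame_mul_inv : P x * ((P x).transpose * G x) = 1 :=
  mul_eq_one_comm.1 (hP.frame x hx).1

omit hG in
theorem mul_omega (m : Fin 4) : P x * omega G P m x = gamMat G m x * P x + pdm P m x := by
  rw [omega, ← Matrix.mul_assoc, frame_mul_inv hP hx, Matrix.one_mul]

theorem omega_skew (m : Fin 4) : (omega G P m x).transpose = -omega G P m x := by
  have hd := hP.smooth.diff hG.isOpen hx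
  have h := pdm_congr (A := fun y => (P y).transpose * G y * P y) (B := fun _ => (1 : M4))
    hG.isOpen hx (fun y hy => (hP.frame y hy).1) m
  rw [pdm_const, pdm_mul (hd.transpose.mul (hG.diff hx)) hd,
    pdm_mul hd.transpose (hG.diff hx), pdm_transpose, hG.compat hx] at h
  rw [← add_eq_zero_iff_eq_neg, ← h]
  simp only [omega, transpose_mul, transpose_add, transpose_transpose, hG.transpose_eq,
    Matrix.mul_add, Matrix.add_mul, Matrix.mul_assoc]
  abel

omit hP in
theorem diff_riem : MDiff (fun y => flat (riem G y)) x := by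
  intro p q
  simp only [flat, SelfDual.comp, of_apply, riem_eq]
  exact ((hG.diff hx).mul ((hG.smooth_curvature p.1 p.2).diff hG.isOpen hx)) q.1 q.2

/-- The covariant derivative in the frame is the derivative of the components plus the action
of the connection. -/
theorem flat_inFrame_covRiem (m : Fin 4) :
    flat (inFrame (P x) (covRiem G x m)) = pdm (fun y => flat (frameRiem G P y)) m x -
      (lie (omega G P m x)).transpose * flat (frameRiem G P x) -
      flat (frameRiem G P x) * lie (omega G P m x) := by
  have hd := hP.smooth.diff hG.isOpen hx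
  have hK : MDiff (fun y => kron (P y)) x := fun p q => (hd p.1 q.1).fun_mul (hd p.2 q.2)
  have hKd : pdm (fun y => kron (P y)) m x =
      kron (P x) * lie (omega G P m x) - lie (gamMat G m x) * kron (P x) := by
    rw [lie_mul_right, lie_mul_left, mul_omega hP hx]
    ext p q
    simp only [pdm, kron, kron2, of_apply, Matrix.add_apply, Matrix.sub_apply]
    rw [pd_mul (hd p.1 q.1) (hd p.2 q.2)]
    ring
  simp only [frameRiem, SelfDual.flat_inFrame, flat_covRiem]
  rw [pdm_mul (hK.transpose.mul (diff_riem hG hx)) hK, pdm_mul hK.transpose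
    (diff_riem hG hx), pdm_transpose, hKd]
  simp only [transpose_sub, transpose_mul, Matrix.mul_sub, Matrix.sub_mul, Matrix.add_mul,
    Matrix.mul_assoc]
  abel

omit hP in
/-- The covariant derivative has the symmetries of a curvature tensor. -/
theorem isCurvTen_covRiem (m : Fin 4) : IsCurvTen (covRiem G x m) := by
  have hd : ∀ i j k l, DifferentiableAt ℝ (fun y => riem G y i j k l) x := by
    intro i j k l
    simp only [riem_eq]
    exact ((hG.diff hx).mul ((hG.smooth_curvature i j).diff hG.isOpen hx)) k l
  have hR := hG.isCurvTen hx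
  have hneg : ∀ f : Euc4 → ℝ, pd (fun y => -f y) m x = -pd f m x := fun f => by simp [pd]
  have b1 : ∀ i j k l, pd (fun y => riem G y j i k l) m x =
      -pd (fun y => riem G y i j k l) m x := fun i j k l => by
    rw [pd_congr hG.isOpen hx (fun y hy => (hG.isCurvTen hy).anti12 i j k l) m, hneg]
  have b2 : ∀ i j k l, pd (fun y => riem G y i j l k) m x =
      -pd (fun y => riem G y i j k l) m x := fun i j k l => by
    rw [pd_congr hG.isOpen hx (fun y hy => (hG.isCurvTen hy).anti34 i j k l) m, hneg]
  have b3 : ∀ i j k l, pd (fun y => riem G y k l i j) m x =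
      pd (fun y => riem G y i j k l) m x := fun i j k l =>
    pd_congr hG.isOpen hx (fun y hy => (hG.isCurvTen hy).swap i j k l) m
  have b4 : ∀ i j k l, pd (fun y => riem G y i j k l) m x + pd (fun y => riem G y i k l j) m x +
      pd (fun y => riem G y i l j k) m x = 0 := fun i j k l => by
    rw [← pd_add (hd i j k l) (hd i k l j), ← pd_add ((hd i j k l).fun_add (hd i k l j)) (hd i l j k),
      pd_congr hG.isOpen hx (fun y hy => (hG.isCurvTen hy).bianchi i j k l) m, pd_const]
  refine ⟨fun i j k l => ?_, fun i j k l => ?_, fun i j k l => ?_, fun i j k l => ?_⟩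
  · simp only [covRiem, Finset.sum_add_distrib, b1 i j k l, hR.anti12 i _ k l, hR.anti12 _ j k l,
      hR.anti12 i j _ l, hR.anti12 i j k _, mul_neg, Finset.sum_neg_distrib]
    ring
  · simp only [covRiem, Finset.sum_add_distrib, b2 i j k l, hR.anti34 i j k _, hR.anti34 i j _ l,
      hR.anti34 _ j k l, hR.anti34 i _ k l, mul_neg, Finset.sum_neg_distrib]
    ring
  · simp only [covRiem, Finset.sum_add_distrib, b3 i j k l, hR.swap i j _ l, hR.swap i j k _,
      hR.swap _ j k l, hR.swap i _ k l]
    ring
  · simp only [covRiem]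
    have h : ∀ p, (gam G x p m i * riem G x p j k l + gam G x p m j * riem G x i p k l +
        gam G x p m k * riem G x i j p l + gam G x p m l * riem G x i j k p) +
        (gam G x p m i * riem G x p k l j + gam G x p m k * riem G x i p l j +
        gam G x p m l * riem G x i k p j + gam G x p m j * riem G x i k l p) +
        (gam G x p m i * riem G x p l j k + gam G x p m l * riem G x i p j k +
        gam G x p m j * riem G x i l p k + gam G x p m k * riem G x i l j p) = 0 := fun p => by
      linear_combination gam G x p m i * hR.bianchi p j k l + gam G x p m j * hR.bianchi i p k l +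
        gam G x p m k * hR.bianchi i j p l + gam G x p m l * hR.bianchi i j k p
    have hs := Finset.sum_eq_zero (s := Finset.univ) fun p _ => h p
    simp only [Finset.sum_add_distrib] at hs ⊢
    linarith [b4 i j k l]

omit hP in
theorem isCurvTen_frameRiem : IsCurvTen (frameRiem G P x) := (hG.isCurvTen hx).inFrame _

omit hP in
theorem isCurvTen_covFrame (m : Fin 4) : IsCurvTen (covFrame G P x m) := by
  have h := fun t => (isCurvTen_covRiem hG hx t).inFrame (P x)
  refine ⟨fun i j k l => ?_, fun i j k l => ?_, fun i j k l => ?_, fun i j k l => ?_⟩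
  · simp only [covFrame, (h _).anti12 i j k l, mul_neg, Finset.sum_neg_distrib]
  · simp only [covFrame, (h _).anti34 i j k l, mul_neg, Finset.sum_neg_distrib]
  · simp only [covFrame, (h _).swap i j k l]
  · simp only [covFrame, ← Finset.sum_add_distrib, ← mul_add, (h _).bianchi i j k l, mul_zero,
      Finset.sum_const_zero]

omit hG hP hx in
/-- The contraction of a cyclic three-tensor with three copies of a matrix is cyclic. -/
theorem cyclic_contract {T : Fin 4 → Fin 4 → Fin 4 → ℝ}
    (hT : ∀ t i j, T t i j + T i j t + T j t i = 0) (Q : M4) (m a b : Fin 4) :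
    (∑ t, ∑ i, ∑ j, Q t m * Q i a * Q j b * T t i j) +
      (∑ t, ∑ i, ∑ j, Q t a * Q i b * Q j m * T t i j) +
      (∑ t, ∑ i, ∑ j, Q t b * Q i m * Q j a * T t i j) = 0 := by
  have e1 : (∑ t, ∑ i, ∑ j, Q t a * Q i b * Q j m * T t i j) =
      ∑ t, ∑ i, ∑ j, Q t m * Q i a * Q j b * T i j t := by
    rw [Finset.sum_congr rfl fun (t : Fin 4) _ => Finset.sum_comm, Finset.sum_comm]
    exact Finset.sum_congr rfl fun i _ => Finset.sum_congr rfl fun j _ =>
      Finset.sum_congr rfl fun t _ => by ring
  have e2 : (∑ t, ∑ i, ∑ j, Q t b * Q i m * Q j a * T t i j) =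
      ∑ t, ∑ i, ∑ j, Q t m * Q i a * Q j b * T j t i := by
    rw [Finset.sum_comm]
    refine Finset.sum_congr rfl fun i _ => ?_
    rw [Finset.sum_comm]
    exact Finset.sum_congr rfl fun j _ => Finset.sum_congr rfl fun t _ => by ring
  rw [e1, e2]
  simp only [← Finset.sum_add_distrib, ← mul_add, hT, mul_zero, Finset.sum_const_zero]

omit hP in
theorem bianchi2_frame (m a b c d : Fin 4) :
    covFrame G P x m a b c d + covFrame G P x a b m c d + covFrame G P x b m a c d = 0 := by
  have e : ∀ m a b, covFrame G P x m a b c d = ∑ t, ∑ i, ∑ j, P x t m * P x i a * P x j b *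
      ∑ k, ∑ l, covRiem G x t i j k l * P x k c * P x l d := by
    intro m a b
    simp only [covFrame, inFrame, Finset.mul_sum]
    exact Finset.sum_congr rfl fun t _ => Finset.sum_congr rfl fun i _ =>
      Finset.sum_congr rfl fun j _ => Finset.sum_congr rfl fun k _ =>
      Finset.sum_congr rfl fun l _ => by ring
  rw [e, e, e]
  refine cyclic_contract (fun t i j => ?_) (P x) m a b
  simp only [← Finset.sum_add_distrib, ← add_mul, hG.bianchi2 hx t i j, zero_mul,
    Finset.sum_const_zero]

/-- The Einstein condition in the frame. -/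
theorem ricTen_frameRiem (hE : IsEinsteinThree G U) (a c : Fin 4) :
    ricTen (frameRiem G P x) a c = 3 * (1 : M4) a c := by
  have hR := hG.isCurvTen hx
  have hinv : P x * (P x).transpose = (G x)⁻¹ := by
    refine (Matrix.inv_eq_left_inv ?_).symm
    rw [Matrix.mul_assoc, frame_mul_inv hP hx]
  have hcontract : ∀ i k, ∑ j, ∑ l, riem G x i j k l * (P x * (P x).transpose) j l =
      ric G x k i := by
    intro i k
    have h1 : (G x)⁻¹ * G x = 1 := nonsing_inv_mul _ (Ne.isUnit (hG.det_ne hx))
    rw [SelfDual.ric_eq_sum_riemUp hG.symm, hinv]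
    refine Finset.sum_congr rfl fun j _ => ?_
    have e : ∀ l, riem G x i j k l = ∑ p, G x l p * riemUp G x p k j i := by
      intro l
      have h2 : riem G x i j k l = riem G x j i l k := by
        linarith [hR.anti12 j i k l, hR.anti34 j i k l]
      rw [h2]
      rfl
    calc ∑ l, riem G x i j k l * (G x)⁻¹ j l
        = ∑ p, ((G x)⁻¹ * G x) j p * riemUp G x p k j i := by
          simp only [e, mul_apply, Finset.sum_mul]
          rw [Finset.sum_comm]
          exact Finset.sum_congr rfl fun p _ => Finset.sum_congr rfl fun l _ => by ring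
      _ = riemUp G x j k j i := by rw [h1]; simp [one_apply]
  have hric : ∀ i k, ∑ j, ∑ l, riem G x i j k l * (P x * (P x).transpose) j l = 3 * G x i k := by
    intro i k
    rw [hcontract, hE x hx, hG.symm x i k]
  calc ricTen (frameRiem G P x) a c
      = ∑ i, ∑ k, P x i a * P x k c *
          ∑ j, ∑ l, riem G x i j k l * (P x * (P x).transpose) j l := by
        simp only [ricTen, frameRiem, inFrame, mul_apply, transpose_apply, Finset.mul_sum]
        rw [Finset.sum_comm]
        refine Finset.sum_congr rfl fun i _ => ?_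
        rw [Finset.sum_comm]
        conv_rhs => rw [Finset.sum_comm]
        refine Finset.sum_congr rfl fun j _ => ?_
        rw [Finset.sum_comm]
        refine Finset.sum_congr rfl fun k _ => ?_
        rw [Finset.sum_comm]
        exact Finset.sum_congr rfl fun l _ => Finset.sum_congr rfl fun b _ => by ring
    _ = 3 * ((P x).transpose * G x * P x) a c := by
        simp only [hric]
        simp only [mul_apply, transpose_apply, Finset.mul_sum, Finset.sum_mul]
        rw [Finset.sum_comm]
        exact Finset.sum_congr rfl fun i _ => Finset.sum_congr rfl fun k _ => by ring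
    _ = _ := by rw [(hP.frame x hx).1]

omit hP in
/-- Nonnegative sectional curvature in the frame. -/
theorem sec_frameRiem (hK : SecNonneg G U) (e f : Fin 4 → ℝ) :
    0 ≤ ∑ i, ∑ j, ∑ k, ∑ l, frameRiem G P x i j k l * e i * f j * e k * f l := by
  have h := hK x hx (P x *ᵥ e) (P x *ᵥ f)
  have h1 := SelfDual.sum_wedge_sec (isCurvTen_frameRiem (P := P) hG hx) e f
  have h2 := SelfDual.sum_wedge_sec (hG.isCurvTen hx) (P x *ᵥ e) (P x *ᵥ f)
  have hv : flatVec (vecMulVec (P x *ᵥ f) (P x *ᵥ e) - vecMulVec (P x *ᵥ e) (P x *ᵥ f)) =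
      kron (P x) *ᵥ flatVec (vecMulVec f e - vecMulVec e f) := by
    rw [← SelfDual.flatVec_conj, Matrix.mul_sub, Matrix.sub_mul, mul_vecMulVec, vecMulVec_mul,
      mul_vecMulVec, vecMulVec_mul, vecMul_transpose, vecMul_transpose]
  rw [hv] at h2
  rw [frameRiem, SelfDual.flat_inFrame, ← mulVec_mulVec, ← mulVec_mulVec, dotProduct_mulVec,
    vecMul_transpose, h2] at h1
  simp only [frameRiem]
  linarith

/-- The covariant derivative of the Ricci tensor vanishes. -/
theorem ricTen_inFrame_covRiem (hE : IsEinsteinThree G U) (m a c : Fin 4) :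
    ricTen (inFrame (P x) (covRiem G x m)) a c = 0 := by
  have h : ∀ j, inFrame (P x) (covRiem G x m) a j c j =
      pd (fun y => frameRiem G P y a j c j) m x -
      ((∑ p, omega G P m x p a * frameRiem G P x p j c j) +
        ∑ p, omega G P m x p j * frameRiem G P x a p c j) -
      ((∑ p, frameRiem G P x a j p j * omega G P m x p c) +
        ∑ p, frameRiem G P x a j c p * omega G P m x p j) := by
    intro j
    have := congrFun (congrFun (flat_inFrame_covRiem hG hP hx m) (a, j)) (c, j)
    rw [Matrix.sub_apply, Matrix.sub_apply, lie_row, lie_col] at this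
    simpa [flat, SelfDual.comp, pdm] using this
  have hd : ∀ j, DifferentiableAt ℝ (fun y => frameRiem G P y a j c j) x := by
    intro j
    have hd' := hP.smooth.diff hG.isOpen hx
    have hK : MDiff (fun y => kron (P y)) x := fun p q => (hd' p.1 q.1).fun_mul (hd' p.2 q.2)
    have := (hK.transpose.mul (diff_riem hG hx)).mul hK (a, j) (c, j)
    have e : (fun y => frameRiem G P y a j c j) = fun y =>
        ((kron (P y)).transpose * flat (riem G y) * kron (P y)) (a, j) (c, j) :=
      funext fun y => by rw [← SelfDual.flat_inFrame]; rfl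
    rw [e]
    exact this
  have hw : ∀ p q, omega G P m x p q = -omega G P m x q p := fun p q => by
    simpa using congrFun (congrFun (omega_skew hG hP hx m) q) p
  have h0 : pd (fun y => ∑ j, frameRiem G P y a j c j) m x = 0 := by
    rw [pd_congr (f := fun y => ∑ j, frameRiem G P y a j c j) hG.isOpen hx
      (g := fun _ => 3 * (1 : M4) a c)
      (fun y hy => ricTen_frameRiem hG hP hy hE a c) m, pd_const]
  rw [pd_sum _ (fun j _ => hd j)] at h0
  have hskew : ∑ j, ∑ p, omega G P m x p j * frameRiem G P x a p c j +
      ∑ j, ∑ p, frameRiem G P x a j c p * omega G P m x p j = 0 := by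
    conv_lhs => arg 2; rw [Finset.sum_comm]
    rw [← Finset.sum_add_distrib]
    refine Finset.sum_eq_zero fun j _ => ?_
    rw [← Finset.sum_add_distrib]
    refine Finset.sum_eq_zero fun p _ => ?_
    rw [hw p j]
    ring
  have h1 : ∀ p q, ∑ j, frameRiem G P x p j q j = 3 * (1 : M4) p q :=
    fun p q => ricTen_frameRiem hG hP hx hE p q
  have h2 : ∑ j, ∑ p, omega G P m x p a * frameRiem G P x p j c j = 3 * omega G P m x c a := by
    rw [Finset.sum_comm]
    simp only [← Finset.mul_sum, h1]
    simp [one_apply, mul_comm]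
  have h3 : ∑ j, ∑ p, frameRiem G P x a j p j * omega G P m x p c = 3 * omega G P m x a c := by
    rw [Finset.sum_comm]
    simp only [← Finset.sum_mul, h1]
    simp [one_apply]
  simp only [ricTen, h, Finset.sum_sub_distrib, Finset.sum_add_distrib, h0, h2, h3]
  linarith [hw a c]

/-- The contracted second Bianchi identity. -/
theorem div_covFrame (hE : IsEinsteinThree G U) (b c d : Fin 4) :
    ∑ m, covFrame G P x m m b c d = 0 := by
  have hC := isCurvTen_covFrame (P := P) hG hx
  have hric : ∀ n a e, ∑ j, covFrame G P x n a j e j = 0 := by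
    intro n a e
    simp only [covFrame]
    rw [Finset.sum_comm]
    simp only [← Finset.mul_sum]
    refine Finset.sum_eq_zero fun t _ => mul_eq_zero_of_right _ ?_
    exact ricTen_inFrame_covRiem hG hP hx hE t a e
  have h := Finset.sum_eq_zero (s := Finset.univ)
    (fun (m : Fin 4) _ => bianchi2_frame (P := P) hG hx m c d m b)
  simp only [Finset.sum_add_distrib] at h
  have e1 : ∑ m, covFrame G P x m c d m b = ∑ m, covFrame G P x m m b c d :=
    Finset.sum_congr rfl fun m _ => (hC m).swap m b c d
  have e2 : ∑ m, covFrame G P x c d m m b = 0 := by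
    rw [Finset.sum_congr rfl fun m _ => (hC c).anti34 d m b m, Finset.sum_neg_distrib, hric,
      neg_zero]
  have e3 : ∑ m, covFrame G P x d m c m b = 0 := by
    rw [Finset.sum_congr rfl fun m _ => ((hC d).anti12 c m m b).trans
      (by rw [(hC d).anti34 c m b m, neg_neg]), hric]
  rw [e1, e2, e3, add_zero, add_zero] at h
  exact h

end

end Vale.Agent.P211.Local
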